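import Mathlib
import Vale.Agent.Lib.P090.Defs

/-!
P090 pool piece B (backup copy): disjoint unions of metric spaces. The inclusion of a piece is
1-Lipschitz, there is a 1-Lipschitz retraction onto each piece, and a disjoint union of
1-separated spaces is uniformly discrete.
-/

namespace Vale.Agent.Lib.P090.H5

open Vale.Agent.Lib.P090
open scoped NNReal ENNReal

universe u

attribute [local instance] Metric.Sigma.metricSpace

variable {E : ℕ → Type u} [∀ n, MetricSpace (E n)]

theorem sigma_dist_same (n : ℕ) (x y : E n) :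
    dist (Sigma.mk n x : Σ k, E k) ⟨n, y⟩ = dist x y :=
  Metric.Sigma.dist_same n x y

theorem sigma_dist_ne {i j : ℕ} (hij : i ≠ j) (x : E i) (y : E j) :
    dist (⟨i, x⟩ : Σ k, E k) ⟨j, y⟩
      = dist x (Nonempty.some ⟨x⟩) + 1 + dist (Nonempty.some ⟨y⟩) y :=
  Metric.Sigma.dist_ne hij x y

theorem sigma_mk_lipschitz (n : ℕ) : LipschitzWith 1 (Sigma.mk n : E n → Σ k, E k) :=
  (Metric.Sigma.isometry_mk n).lipschitz

/-- A retraction of the disjoint union onto its `n`-th piece. -/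
noncomputable def sigmaRet (n : ℕ) (c : E n) : (Σ k, E k) → E n := fun p =>
  if h : p.1 = n then h ▸ p.2 else Nonempty.some ⟨c⟩

set_option linter.unusedSectionVars false in
theorem sigmaRet_mk (n : ℕ) (c x : E n) : sigmaRet n c (Sigma.mk n x) = x := by
  unfold sigmaRet
  rw [dif_pos rfl]

set_option linter.unusedSectionVars false in
theorem sigmaRet_of_ne (n : ℕ) (c : E n) {i : ℕ} (hi : i ≠ n) (x : E i) :
    sigmaRet n c ⟨i, x⟩ = Nonempty.some ⟨c⟩ := by
  unfold sigmaRet
  rw [dif_neg hi]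

theorem sigmaRet_lipschitz (n : ℕ) (c : E n) : LipschitzWith 1 (sigmaRet n c) := by
  apply LipschitzWith.of_dist_le_mul
  rintro ⟨i, x⟩ ⟨j, y⟩
  rw [NNReal.coe_one, one_mul]
  by_cases hi : i = n
  · subst hi
    by_cases hj : j = i
    · subst hj
      rw [sigmaRet_mk, sigmaRet_mk, sigma_dist_same]
    · rw [sigmaRet_mk, sigmaRet_of_ne i c hj, sigma_dist_ne (Ne.symm hj)]
      have h1 : (Nonempty.some ⟨c⟩ : E i) = Nonempty.some ⟨x⟩ := rfl
      rw [h1]
      have h2 := dist_nonneg (x := (Nonempty.some ⟨y⟩ : E j)) (y := y)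
      linarith
  · by_cases hj : j = n
    · subst hj
      rw [sigmaRet_mk, sigmaRet_of_ne j c hi, sigma_dist_ne hi]
      have h1 : (Nonempty.some ⟨c⟩ : E j) = Nonempty.some ⟨y⟩ := rfl
      rw [h1]
      have h2 := dist_nonneg (x := x) (y := (Nonempty.some ⟨x⟩ : E i))
      linarith
    · rw [sigmaRet_of_ne n c hi, sigmaRet_of_ne n c hj, dist_self]
      exact dist_nonneg

theorem sigma_uniformlyDiscrete (h : ∀ n, ∀ x y : E n, x ≠ y → 1 ≤ dist x y) :
    UniformlyDiscrete (Σ k, E k) := by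
  show ∃ θ : ℝ, 0 < θ ∧ ∀ x y : (Σ k, E k), x ≠ y → θ ≤ dist x y
  refine ⟨1, one_pos, ?_⟩
  rintro ⟨i, x⟩ ⟨j, y⟩ hne
  by_cases hij : i = j
  · subst hij
    rw [sigma_dist_same]
    apply h
    intro hxy
    exact hne (by rw [hxy])
  · exact Metric.Sigma.one_le_dist_of_ne hij x y

end Vale.Agent.Lib.P090.H5
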